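import Vale.Agent.P275MM.Tow
import Vale.Agent.P275GQ.Lt

/-!
# P275, flag varieties: frames and bundles on the spaces of partial flags
-/

set_option linter.all false
set_option backward.isDefEq.respectTransparency false

open Set Matrix Topology
open Vale.Agent.P275Z Vale.Agent.P275MM P275CC
open Vale.Agent.P275NA (Mn)
open Vale.Agent.P275MB (inv_mem_alg)
open Vale.Agent.P275BW (Iv GH gh_eq gh_quo gh_cpt gh_det)

noncomputable section

namespace Vale.Agent.P275FG

variable {n i j k l : ℕ} {X h M M' M'' : Mn n}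

/-- the first `j` columns completed by the unit matrix -/
def Ck (j : ℕ) (X : Mn n) : Mn n := of fun a c => if (c : ℕ) < j then X a c else (1 : Mn n) a c

/-- the inverse of the lower unipotent factor -/
def Lm (k : ℕ) (X : Mn n) : Mn n := of fun a c => (Ck (min (a : ℕ) k) X)⁻¹ a c

/-- the product of the leading minors -/
def dl (k : ℕ) (X : Mn n) : ℂ := X.det * ∏ j ∈ Finset.range (k + 1), (Ck j X).det

/-- the parabolic factor -/
def fr (k : ℕ) (X : Mn n) : Mn n := Lm k X * X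

theorem diag_ne (hh : h ∈ par n k) (h0 : h.det ≠ 0) {a : Fin n} (ha : (a : ℕ) < k) : h a a ≠ 0 := by
  have := par_diag ha _ (inv_mem_alg hh h0) _ hh
  rw [nonsing_inv_mul _ h0.isUnit, one_apply_eq] at this
  exact right_ne_zero_of_mul_eq_one this.symm

theorem diag_div (hX : X ∈ par n k) (hh : h ∈ par n k) (h0 : h.det ≠ 0) {a : Fin n}
    (ha : (a : ℕ) < k) : (X * h⁻¹) a a = X a a / h a a := by
  rw [eq_div_iff (diag_ne hh h0 ha), ← par_diag ha _ (mul_mem hX (inv_mem_alg hh h0)) _ hh,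
    nonsing_inv_mul_cancel_right _ _ h0.isUnit]

theorem Ck_mul (hh : h ∈ par n j) : Ck j (X * h) = Ck j X * Ck j h := by
  ext a c
  rw [mul_apply]
  by_cases e : (c : ℕ) < j
  · simp only [Ck, of_apply, e, if_true, mul_apply]
    refine Finset.sum_congr rfl fun b _ => ?_
    by_cases h2 : (b : ℕ) < j
    · rw [if_pos h2]
    · rw [hh b c e (e.trans_le (not_lt.1 h2)), mul_zero, mul_zero]
  · simp only [Ck, of_apply, e, if_false]
    rw [Finset.sum_eq_single c (fun b _ hb => by rw [one_apply_ne hb, mul_zero]) (by simp),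
      if_neg e, one_apply_eq, mul_one]

theorem det_Ck (hh : h ∈ par n j) (h0 : h.det ≠ 0) : (Ck j h).det ≠ 0 := by
  rw [det_of_isUpperTriangular fun a c e => ?_]
  · refine Finset.prod_ne_zero_iff.2 fun a _ => ?_
    simp only [Ck, of_apply]
    split_ifs with e
    exacts [diag_ne hh h0 e, by simp]
  · simp only [Ck, of_apply]
    split_ifs with e'
    exacts [hh a c e' e, one_apply_ne (ne_of_gt e)]

theorem dl_iff : dl k X ≠ 0 ↔ X.det ≠ 0 ∧ ∀ j ≤ k, (Ck j X).det ≠ 0 := by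
  simp only [dl, mul_ne_zero_iff, Finset.prod_ne_zero_iff, Finset.mem_range, Nat.lt_succ_iff]

theorem dl_par (hh : h ∈ par n k) (h0 : h.det ≠ 0) : dl k h ≠ 0 :=
  dl_iff.2 ⟨h0, fun _ e => det_Ck (par_anti e hh) h0⟩

theorem dl_mul (hh : h ∈ par n k) : dl k (X * h) = dl k X * dl k h := by
  rw [dl, dl, dl, det_mul, mul_mul_mul_comm, ← Finset.prod_mul_distrib]
  exact congrArg _ (Finset.prod_congr rfl fun j e => by
    rw [Ck_mul (par_anti (Nat.lt_succ_iff.1 (Finset.mem_range.1 e)) hh), det_mul])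

theorem dl_anti (e : j ≤ k) (h0 : dl k X ≠ 0) : dl j X ≠ 0 :=
  dl_iff.2 ⟨(dl_iff.1 h0).1, fun _ e' => (dl_iff.1 h0).2 _ (e'.trans e)⟩

theorem Lm_mul (hh : h ∈ par n k) (h0 : h.det ≠ 0) : Lm k (X * h) = Lm k X := by
  ext a c
  have h2 := par_anti (min_le_right (a : ℕ) k) hh
  have h1 : ∀ c, (Ck (min (a : ℕ) k) h)⁻¹ a c = (1 : Mn n) a c := fun c => by
    rw [← mul_nonsing_inv _ (det_Ck h2 h0).isUnit, mul_apply, Finset.sum_eq_single a]
    · simp [Ck]
    · intro b _ hb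
      refine mul_eq_zero_of_left ?_ _
      simp only [Ck, of_apply]
      split_ifs with e
      exacts [h2 a b e (e.trans_le (min_le_left _ _)), one_apply_ne hb.symm]
    · simp
  simp only [Lm, of_apply, Ck_mul h2, Matrix.mul_inv_rev]
  rw [mul_apply]
  simp only [h1]
  rw [← mul_apply, Matrix.one_mul]

theorem fr_mul (hh : h ∈ par n k) (h0 : h.det ≠ 0) : fr k (X * h) = fr k X * h := by
  rw [fr, Lm_mul hh h0, fr, Matrix.mul_assoc]

theorem fr_mem (h0 : dl k X ≠ 0) : fr k X ∈ par n k := fun a c e e' => by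
  have := congrFun₂ (nonsing_inv_mul _ ((dl_iff.1 h0).2 _ (min_le_right (a : ℕ) k)).isUnit) a c
  rw [one_apply_ne e'.ne', mul_apply] at this
  rw [fr, mul_apply, ← this]
  exact Finset.sum_congr rfl fun b _ => by
    simp only [Lm, Ck, of_apply, if_pos (lt_min (Fin.lt_def.1 e') e)]

theorem fr_det (h0 : dl k X ≠ 0) : (fr k X).det ≠ 0 := by
  have h1 : ∀ a c, a ≤ c → Lm k X a c = (1 : Mn n) a c := fun a c e => by
    have h2 : ¬(c : ℕ) < min (a : ℕ) k := not_lt.2 ((min_le_left _ _).trans e)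
    rw [← nonsing_inv_mul _ ((dl_iff.1 h0).2 _ (min_le_right (a : ℕ) k)).isUnit, mul_apply,
      Finset.sum_eq_single c]
    · simp only [Lm, Ck, of_apply, if_neg h2, one_apply_eq, mul_one]
    · intro b _ hb
      simp only [Ck, of_apply, if_neg h2, one_apply_ne hb, mul_zero]
    · simp
  rw [fr, det_mul, det_of_isLowerTriangular _ fun a c e => (h1 a c (le_of_lt e)).trans
    (one_apply_ne (ne_of_lt e))]
  simpa [h1] using (dl_iff.1 h0).1

theorem ct_Ck : Continuous (Ck j : Mn n → Mn n) := continuous_matrix fun a c => by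
  simp only [Ck, of_apply]
  split_ifs
  exacts [continuous_id.matrix_elem a c, continuous_const]

theorem ct_dl : Continuous (dl k : Mn n → ℂ) :=
  continuous_id.matrix_det.mul (continuous_finsetProd _ fun _ _ => ct_Ck.matrix_det)

theorem ct_fr {T : Type} [TopologicalSpace T] {s : Set T} {f : T → Mn n} (hf : ContinuousOn f s)
    (h0 : ∀ t ∈ s, dl k (f t) ≠ 0) : ContinuousOn (fun t => fr k (f t)) s :=
  ctOn_mul (continuousOn_pi.2 fun a => continuousOn_pi.2 fun c => ctOn_ent (ctOn_inv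
    (ct_Ck.comp_continuousOn hf) fun t ht => (dl_iff.1 (h0 t ht)).2 _ (min_le_right (a : ℕ) k)) a c) hf

variable {H H' : Subalgebra ℂ (Mn n)} {σ : Iv n} {x : GH H}

theorem nc (hH : bor n ≤ H) : Nc (GH H) := by
  have := gh_cpt hH
  have : T2Space (GH H) := (t2Space_iff_of_isOpenQuotientMap gh_quo).2 (by
    have h1 : Continuous fun q : Iv n × Iv n => q.1.1⁻¹ * q.2.1 :=
      (continuousOn_univ.1 (ctOn_inv (continuous_subtype_val.comp continuous_fst).continuousOn
        fun q _ => q.1.2)).matrix_mul (continuous_subtype_val.comp continuous_snd)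
    have h2 : {q : Iv n × Iv n | GH.mk H q.1 = GH.mk H q.2} =
        (fun q : Iv n × Iv n => q.1.1⁻¹ * q.2.1) ⁻¹' (H.toSubmodule : Set (Mn n)) := by
      ext q
      refine gh_eq.trans ⟨?_, fun e => ⟨_, e, ?_⟩⟩
      · rintro ⟨β, e, e'⟩
        change _ * _ ∈ H
        rwa [e', nonsing_inv_mul_cancel_left _ _ q.1.2.isUnit]
      · exact (mul_nonsing_inv_cancel_left _ _ q.1.2.isUnit).symm
    rw [h2]
    exact H.toSubmodule.closed_of_finiteDimensional.preimage h1)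
  have : SecondCountableTopology (Mn n) :=
    inferInstanceAs (SecondCountableTopology (Fin n → Fin n → ℂ))
  have : SecondCountableTopology (Iv n) := TopologicalSpace.Subtype.secondCountableTopology _
  exact ⟨inferInstance, inferInstance,
    gh_quo.isQuotientMap.secondCountableTopology gh_quo.isOpenMap⟩

/-- the spaces of partial flags -/
abbrev F (n k : ℕ) : Type := GH (par n k)

instance : Nc (F n k) := nc (bor_le_par k)

instance : CompactSpace (F n k) := gh_cpt (bor_le_par k)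

/-- the projections -/
def pr (e : H ≤ H') : C(GH H, GH H') :=
  ⟨Quot.map id fun _ _ ⟨β, a, b⟩ => ⟨β, e a, b⟩, continuous_quot_lift _ continuous_quot_mk⟩

theorem pr_mk (e : H ≤ H') (σ : Iv n) : pr e (GH.mk H σ) = GH.mk H' σ := rfl

theorem ex_out (σ : Iv n) : ∃ β ∈ H, β.det ≠ 0 ∧ (Quot.out (GH.mk H σ)).1 = σ.1 * β :=
  let ⟨β, a, b⟩ := gh_eq.1 (Quot.out_eq (GH.mk H σ)).symm
  ⟨β, a, gh_det b, b⟩

variable (H) in
/-- the big cells -/
def U (k : ℕ) (M : Mn n) : Set (GH H) := {x | dl k (M * (Quot.out x).1) ≠ 0}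

/-- the transition matrices -/
def fq (i j : ℕ) (M M' : Mn n) (x : GH H) : Mn n :=
  fr i (M * (Quot.out x).1) * (fr j (M' * (Quot.out x).1))⁻¹

theorem mem_U (e : H ≤ par n k) : GH.mk H σ ∈ U H k M ↔ dl k (M * σ.1) ≠ 0 := by
  obtain ⟨β, a, b, c⟩ := ex_out (H := H) σ
  rw [U, mem_setOf_eq, c, ← Matrix.mul_assoc, dl_mul (e a), mul_ne_zero_iff_right (dl_par (e a) b)]

theorem fq_mk (e : H ≤ par n i) (e' : H ≤ par n j) :
    fq i j M M' (GH.mk H σ) = fr i (M * σ.1) * (fr j (M' * σ.1))⁻¹ := by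
  obtain ⟨β, a, b, c⟩ := ex_out (H := H) σ
  rw [fq, c, ← Matrix.mul_assoc, ← Matrix.mul_assoc, fr_mul (e a) b, fr_mul (e' a) b,
    Matrix.mul_inv_rev, Matrix.mul_assoc, mul_nonsing_inv_cancel_left _ _ b.isUnit]

theorem op_dl (k : ℕ) (M : Mn n) : IsOpen {σ : Iv n | dl k (M * σ.1) ≠ 0} :=
  isOpen_ne_fun (ct_dl.comp (continuous_const.matrix_mul continuous_subtype_val)) continuous_const

theorem op_U (e : H ≤ par n k) (M : Mn n) : IsOpen (U H k M) := by
  have h1 : GH.mk H ⁻¹' U H k M = {σ : Iv n | dl k (M * σ.1) ≠ 0} := Set.ext fun _ => mem_U e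
  rw [← gh_quo.isQuotientMap.isOpen_preimage, h1]
  exact op_dl k M

theorem cov_U (k : ℕ) (x : GH H) : ∃ M, x ∈ U H k M := ⟨(Quot.out x).1⁻¹, by
  rw [U, mem_setOf_eq, nonsing_inv_mul _ (Quot.out x).2.isUnit]
  exact dl_par (one_mem _) (by simp)⟩

theorem U_anti (e : j ≤ k) : U H k M ⊆ U H j M := fun _ => dl_anti e

theorem pr_U (e : H ≤ H') (e' : H' ≤ par n k) : pr e x ∈ U H' k M ↔ x ∈ U H k M := by
  obtain ⟨σ, rfl⟩ := gh_quo.surjective x
  rw [pr_mk, mem_U e', mem_U (e.trans e')]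

theorem pr_fq (e : H ≤ H') (e' : H' ≤ par n k) : fq k k M M' (pr e x) = fq k k M M' x := by
  obtain ⟨σ, rfl⟩ := gh_quo.surjective x
  rw [pr_mk, fq_mk e' e', fq_mk (e.trans e') (e.trans e')]

theorem ct_fq (e : H ≤ par n i) (e' : H ≤ par n j) :
    ContinuousOn (fq i j M M') (U H i M ∩ U H j M') := by
  rintro x ⟨a, b⟩
  obtain ⟨σ, rfl⟩ := gh_quo.surjective x
  refine (gh_quo.continuousAt_comp_iff.1 ?_).continuousWithinAt
  have h1 : ∀ M : Mn n, Continuous fun σ : Iv n => M * σ.1 := fun M =>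
    continuous_const.matrix_mul continuous_subtype_val
  rw [show fq i j M M' ∘ GH.mk H = _ from funext fun _ => fq_mk e e']
  exact (ctOn_mul (ct_fr (h1 M).continuousOn fun _ h => h.1) (ctOn_inv
    (ct_fr (h1 M').continuousOn fun _ h => h.2) fun _ h => fr_det h.2)).continuousAt
      (((op_dl i M).inter (op_dl j M')).mem_nhds ⟨(mem_U e).1 a, (mem_U e').1 b⟩)

theorem fq_mul (b : x ∈ U H j M') : fq i j M M' x * fq j l M' M'' x = fq i l M M'' x := by
  rw [fq, fq, fq, Matrix.mul_assoc, nonsing_inv_mul_cancel_left _ _ (fr_det b).isUnit]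

theorem fq_mem (e : k ≤ i) (e' : k ≤ j) (a : x ∈ U H i M) (b : x ∈ U H j M') :
    fq i j M M' x ∈ par n k :=
  mul_mem (par_anti e (fr_mem a)) (par_anti e' (inv_mem_alg (fr_mem b) (fr_det b)))

theorem fq_det (a : x ∈ U H i M) (b : x ∈ U H j M') : (fq i j M M' x).det ≠ 0 :=
  det_mul_ne (fr_det a) (det_inv_ne (fr_det b))

/-- the trivial bundle in frames adapted to the flag -/
def vb (n k : ℕ) : VB (F n k) (Fin n) where
  ι := Mn n
  U := U _ k
  op := op_U le_rfl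
  cov := cov_U k
  g := fq k k
  ct _ _ := ct_fq le_rfl le_rfl
  id _ _ a := mul_nonsing_inv _ (fr_det a).isUnit
  cc _ _ _ _ _ b _ := fq_mul b

theorem vb_in (e : j ≤ k) : (vb n k).tb.In (pab n j) := fun _ _ _ a b => fq_mem e e a b

/-- the line bundles -/
def xb (a : Fin n) (ha : (a : ℕ) < k) : LB (F n k) where
  toCov := (vb n k).toCov
  g M M' x := fq k k M M' x a a
  ct _ _ := ctOn_ent (ct_fq le_rfl le_rfl) a a
  id M x b := (congrFun₂ ((vb n k).id M x b) a a).trans (one_apply_eq a)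
  cc _ _ _ _ b c d := (par_diag ha _ (fq_mem le_rfl le_rfl b c) _ (fq_mem le_rfl le_rfl c d)).symm.trans
    (congrFun₂ (fq_mul c) a a)

theorem iso_xb (e : j ≤ k) {a : Fin n} (ha : (a : ℕ) < j) (p : par n k ≤ par n j) :
    LB.Iso ((xb a ha).pb (pr p)) (xb a (ha.trans_le e)) :=
  LB.iso_loc _ _ (U _ k) id id (fun M x => fq k j M M x a a) (op_U le_rfl) (cov_U k)
    (fun _ _ b => (pr_U p le_rfl).2 (U_anti e b)) (fun _ => subset_rfl)
    (fun _ => (ctOn_ent (ct_fq le_rfl p) a a).mono fun _ b => ⟨b, U_anti e b⟩)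
    (fun M M' x b c => by
      change _ * fq j j M M' (pr p x) a a = fq k k M M' x a a * _
      rw [pr_fq p le_rfl, ← par_diag ha _ (fq_mem e le_rfl b (U_anti e b)) _
        (fq_mem le_rfl le_rfl (U_anti e b) (U_anti e c)), ← par_diag ha _ (fq_mem e e b c) _
        (fq_mem e le_rfl c (U_anti e c)), fq_mul (U_anti e b), fq_mul c])
    fun _ _ b => diag_ne (fq_mem e le_rfl b (U_anti e b)) (fq_det b (U_anti e b)) ha

theorem iso_quo (e : j ≤ k) (p : par n k ≤ par n j) :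
    VB.Iso (((vb n j).quo (vb_in le_rfl)).pb (pr p)) ((vb n k).quo (vb_in e)) :=
  VB.iso_loc _ _ (U _ k) id id (fun M x => blkQ j (fq k j M M x)) (op_U le_rfl) (cov_U k)
    (fun _ _ b => (pr_U p le_rfl).2 (U_anti e b)) (fun _ => subset_rfl)
    (fun _ => (ct_blkQ.comp_continuousOn (ct_fq le_rfl p)).mono fun _ b => ⟨b, U_anti e b⟩)
    (fun M M' x b c => by
      change _ * blkQ j (fq j j M M' (pr p x)) = blkQ j (fq k k M M' x) * _
      rw [pr_fq p le_rfl, ← blkQ_mul (fq_mem e le_rfl b (U_anti e b)), ← blkQ_mul (fq_mem e e b c),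
        fq_mul (U_anti e b), fq_mul c])
    fun _ _ b => bij_of_det (det_blkQ (fq_mem e le_rfl b (U_anti e b)) (fq_det b (U_anti e b)))

theorem key {k : Fin n} {r : ℕ} (hr : k + r + 1 = n) (σ : Iv n) {g g' : Iv n}
    {v w : Fin (r + 1) → ℂ} {c : ℂ} (a : Cl hr g.1 v) (b : Cl hr g'.1 w) (d : v = c • w) :
    GH.mk (par n (k + 1)) (σ.mul g') = GH.mk _ (σ.mul g) ∧ ∀ M : Mn n,
      dl (k + 1) (M * (σ.mul g').1) ≠ 0 →
        fr (k + 1) (M * (σ.mul g).1) k k = c * fr (k + 1) (M * (σ.mul g').1) k k := by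
  obtain ⟨u, u'⟩ := a.col hr b d
  have e : (σ.mul g).1 = (σ.mul g').1 * (g'.1⁻¹ * g.1) := by
    change σ.1 * _ = σ.1 * _ * _
    rw [Matrix.mul_assoc, mul_nonsing_inv_cancel_left _ _ g'.2.isUnit]
  refine ⟨gh_eq.2 ⟨_, u, e⟩, fun M f => ?_⟩
  rw [e, ← Matrix.mul_assoc, fr_mul u (gh_det e), par_diag (Nat.lt_succ_self _) _ (fr_mem f) _ u,
    u', mul_comm]

theorem loc {k : Fin n} {r : ℕ} (hr : k + r + 1 = n) (σ : Iv n) {v : Fin (r + 1) → ℂ}
    (a : v ≠ 0) : ∃ (O : Set (Fin (r + 1) → ℂ)) (g : (Fin (r + 1) → ℂ) → Iv n), IsOpen O ∧ v ∈ O ∧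
      ContinuousOn (fun w => σ.mul (g w)) O ∧ ∀ w ∈ O, Cl hr (g w).1 w := by
  classical
  obtain ⟨j, b⟩ := Function.ne_iff.1 a
  refine ⟨{w | w j ≠ 0}, fun w => if c : w j ≠ 0 then ⟨_, (cl_mj hr c).1.2⟩ else σ,
    isOpen_ne_fun (continuous_apply j) continuous_const, b,
    IsInducing.subtypeVal.continuousOn_iff.2 (((continuous_const (y := σ.1)).matrix_mul
      ((ct_mj k (up hr j)).comp (ct_hat hr))).continuousOn.congr fun w c => ?_), fun w c => ?_⟩
  · simp only [Function.comp_apply, dif_pos (show w j ≠ 0 from c)]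
    rfl
  · simp only [dif_pos (show w j ≠ 0 from c)]
    exact cl_mj hr c

theorem fq_ent {a : Fin n} (ha : (a : ℕ) < k) (b : GH.mk (par n k) σ ∈ U _ k M)
    (d : GH.mk (par n k) σ ∈ U _ k M') :
    fr k (M * σ.1) a a = fq k k M M' (GH.mk (par n k) σ) a a * fr k (M' * σ.1) a a := by
  have b' := (mem_U le_rfl).1 b
  have d' := (mem_U le_rfl).1 d
  rw [fq_mk le_rfl le_rfl, diag_div (fr_mem b') (fr_mem d') (fr_det d') ha,
    div_mul_cancel₀ _ (diag_ne (fr_mem d') (fr_det d') ha)]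

/-- the fibres of the tower are projective spaces -/
theorem pfib (k : Fin n) {r : ℕ} (hr : k + r + 1 = n) (p : par n (k + 1) ≤ par n k) (x : F n k) :
    PFib (xb k (Nat.lt_succ_self _)) (pr p ⁻¹' {x}) r 1 := by
  obtain ⟨σ, rfl⟩ := gh_quo.surjective x
  have h0 : ∀ v : Fin (r + 1) → ℂ, ∃ g : Iv n, v ≠ 0 → Cl hr g.1 v := fun v => by
    by_cases a : v = 0
    · exact ⟨σ, fun b => (b a).elim⟩
    · obtain ⟨j, b⟩ := Function.ne_iff.1 a
      exact ⟨⟨_, (cl_mj hr b).1.2⟩, fun _ => cl_mj hr b⟩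
  choose G hG using h0
  refine ⟨fun v => GH.mk _ (σ.mul (G v)), fun (M : Mn n) v => fr (k + 1) (M * (σ.mul (G v)).1) k k,
    ctOn_loc fun v a => ?_, ?_,
    fun v w a b => ⟨fun c => ?_, fun ⟨c, d⟩ => (key hr σ (hG v a) (hG w b) d).1.symm⟩,
    fun (M : Mn n) => ctOn_loc fun v a => ?_, fun (M : Mn n) v a b => ?_,
    fun (M : Mn n) v c a b d => ?_, fun (M M' : Mn n) v a b d => fq_ent (Nat.lt_succ_self _) b d⟩
  · obtain ⟨O, g, op, b, c, d⟩ := loc hr σ a
    exact ⟨O, op, b, _, gh_quo.continuous.comp_continuousOn (c.mono inter_subset_right),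
      fun w f => (key hr σ (d w f.2) (hG w f.1) (one_smul _ _).symm).1⟩
  · ext y
    obtain ⟨τ, rfl⟩ := gh_quo.surjective y
    refine ⟨fun ⟨v, a, b⟩ => ?_, fun a => ?_⟩
    · exact (congrArg (pr p) b).symm.trans (gh_eq.2 ⟨_, (hG v a).1.1, rfl⟩).symm
    · obtain ⟨β, b, c⟩ := gh_eq.1 (Eq.symm a : GH.mk (par n k) σ = GH.mk _ τ)
      obtain ⟨v, f, g⟩ := exists_cl hr ⟨b, gh_det c⟩
      exact ⟨v, f, (key hr σ (g := ⟨β, gh_det c⟩) g (hG v f) (one_smul _ _).symm).1.trans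
        (congrArg _ (Subtype.ext c.symm))⟩
  · obtain ⟨β, d, e⟩ := gh_eq.1 c.symm
    refine ⟨_, (hG v a).eq hr (hG w b) ?_⟩
    have e' : (G v).1 = (G w).1 * β := by
      rw [← nonsing_inv_mul_cancel_left σ.1 (G v).1 σ.2.isUnit,
        show σ.1 * (G v).1 = σ.1 * (G w).1 * β from e, Matrix.mul_assoc,
        nonsing_inv_mul_cancel_left _ _ σ.2.isUnit]
    rwa [e', nonsing_inv_mul_cancel_left _ _ (G w).2.isUnit]
  · obtain ⟨O, g, op, b, c, d⟩ := loc hr σ a.1
    have e := fun w (f : w ∈ ({0}ᶜ ∩ (fun v => GH.mk (par n (k + 1)) (σ.mul (G v))) ⁻¹'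
      U _ (k + 1) M) ∩ O) => key hr σ (hG w f.1.1) (d w f.2) (one_smul _ _).symm
    have e' := fun w f => (mem_U (σ := σ.mul (g w)) (M := M) le_rfl).1 (by
      rw [(e w f).1]; exact f.1.2)
    exact ⟨O, op, b, _, ctOn_ent (ct_fr (ctOn_mul continuousOn_const
      (continuous_subtype_val.comp_continuousOn (c.mono inter_subset_right))) e') k k,
        fun w f => ((e w f).2 M (e' w f)).trans (one_mul _)⟩
  · exact diag_ne (fr_mem ((mem_U le_rfl).1 b)) (fr_det ((mem_U le_rfl).1 b)) (Nat.lt_succ_self _)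
  · rw [pow_one]
    exact (key hr σ (hG _ (smul_ne_zero b a)) (hG v a) rfl).2 M ((mem_U le_rfl).1 d)

end Vale.Agent.P275FG
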