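import Vale.Agent.P275FG.Fr
import Vale.Agent.P275CH.Defs

/-!
# P275, flag varieties: the top cohomology
-/

set_option linter.all false
set_option backward.isDefEq.respectTransparency false

open Set Matrix Topology
open Vale.Agent.P275Z Vale.Agent.P275MM P275CC
open Vale.Agent.P275NA (Mn)
open Vale.Agent.P275BW (Iv GH gh_eq gh_quo gh_cpt gh_det)
open Vale.Agent.P275CH (Loc Sem TG Pos FLAG)
open P275S (th Hd)

noncomputable section

namespace Vale.Agent.P275FG

theorem lh_dg {θ : Th} {X Y : Type} [TopologicalSpace X] [TopologicalSpace Y] [Nc X] [Nc Y]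
    {π : C(Y, X)} {y : θ.E Y} {r : ℕ} (h : Function.Bijective (lhL θ π y r))
    (hy : θ.Dg 2 (y : θ.H Y)) {m : ℤ} {b : θ.H Y} (hb : θ.Dg m b) :
    ∃ u, lhL θ π y r u = b ∧ ∀ i : Fin (r + 1), θ.Dg (m - (i : ℕ) * 2) (u i) := by
  obtain ⟨u, rfl⟩ := h.2 b
  refine ⟨u, rfl, fun i => congrFun (h.1 (a₁ := fun i : Fin (r + 1) =>
    θ.pr X (m - (i : ℕ) * 2) (u i)) (Eq.trans ?_ hb)) i⟩
  simp only [lhL, LinearMap.coe_mk, AddHom.coe_mk, map_sum]
  exact Finset.sum_congr rfl fun i _ => by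
    rw [Th.pr_mul_right _ (hy.pow i) (sub_add_cancel _ _), θ.pr_pb]

variable {n k : ℕ} (θ : Th)

theorem top_le (n k : ℕ) : par n n ≤ par n k := (par_eq_bor n.le_succ).le.trans (bor_le_par k)

/-- one step of the tower -/
def pS (n k : ℕ) : C(F n (k + 1), F n k) := pr (par_anti k.le_succ)

/-- from full flags to partial flags -/
def pT (n k : ℕ) : C(F n n, F n k) := pr (top_le n k)

/-- the class of the last line -/
def yS (n k : ℕ) : θ.E (F n (k + 1)) :=
  if h : k < n then θ.c (xb (⟨k, h⟩ : Fin n) k.lt_succ_self) else 0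

/-- the top coefficient for one step -/
def gS (n k : ℕ) : θ.H (F n (k + 1)) →ₗ[ℂ] θ.H (F n k) := topL θ (pS n k) (yS θ n k) (n - k - 1)

/-- the iterated top coefficient -/
def gam (n k : ℕ) : θ.H (F n n) →ₗ[ℂ] θ.H (F n k) :=
  if h : k < n then (gS θ n k).comp (gam n (k + 1))
  else (θ.pb (pr (par_anti (not_lt.1 h)))).toLinearMap
termination_by n - k

variable {θ}

theorem yS_eq (h : k < n) : yS θ n k = θ.c (xb (⟨k, h⟩ : Fin n) k.lt_succ_self) := dif_pos h

theorem pr_id {H : Subalgebra ℂ (Mn n)} (e : H ≤ H) : pr e = ContinuousMap.id _ :=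
  ContinuousMap.ext fun y => by obtain ⟨z, rfl⟩ := gh_quo.surjective y; rfl

theorem lh_pS (h : k < n) : Function.Bijective (lhL θ (pS n k) (yS θ n k) (n - k - 1)) := by
  rw [yS_eq h]
  exact θ.lh _ _ _ 1 (pS n k).continuous.isProperMap one_ne_zero
    (pfib ⟨k, h⟩ (by simp only; omega) _)

theorem gam_lt (h : k < n) (b : θ.H (F n n)) : gam θ n k b = gS θ n k (gam θ n (k + 1) b) := by
  rw [gam, dif_pos h]
  rfl

theorem gam_top (b : θ.H (F n n)) : gam θ n n b = b := by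
  rw [gam, dif_neg (lt_irrefl n), pr_id]
  exact θ.pb_id _ b

variable (θ) in
/-- the tower of partial flags -/
def tow (n : ℕ) : Th.Tow θ n (F n) (F n n) where
  π := pS n
  P := pT n
  y := yS θ n
  z a := θ.c (xb a a.2)
  G k := (gS θ n k).toAddMonoidHom
  Γ k := (gam θ n k).toAddMonoidHom
  hP k _ := ContinuousMap.ext fun y => by obtain ⟨z, rfl⟩ := gh_quo.surjective y; rfl
  hy a := by
    rw [yS_eq a.2, ← Th.c_pb]
    exact Th.c_iso (iso_xb a.2 (Nat.lt_succ_self _) _)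
  sym k h := by
    refine ⟨θ.chi ((vb n k).quo (vb_in le_rfl)), ?_⟩
    rw [← Th.chi_pb, pT, Th.chi_iso (iso_quo h.le _), Th.chi_diag' (VB.tri_iso
      ((vb n n).quo (vb_in h.le)) (fun i j y hi hj a b e => vb_in le_rfl i j y hi hj a.1 b.1 b.1.2 e)
      (L := fun a => xb a.1 a.1.2) fun a => ⟨id, fun _ => subset_rfl, fun _ _ _ _ _ =>
        (div_one _).symm⟩)]
    exact (Finset.prod_subtype _ (by simp) fun a : Fin n =>
      Polynomial.X - Polynomial.C (θ.c (xb a a.2))).symm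
  hG k h a i hi := (topL_pow (lh_pS h) a (by omega)).trans (if_congr (by omega) rfl rfl)
  top a := (gam_top _).trans (by rw [pT, pr_id, θ.pb_id])
  hΓ k h b := gam_lt h b

/-- the dimensions -/
def dm (n k : ℕ) : ℕ := ∑ j ∈ Finset.range k, (n - j - 1)

theorem dm_succ (n k : ℕ) : dm n (k + 1) = dm n k + (n - k - 1) := Finset.sum_range_succ _ _

theorem dm_top (n : ℕ) : Fintype.card (Pos n) = dm n n := by
  rw [Fintype.card_subtype, Fintype.card_product_filter_lt, Fintype.card_fin, Nat.choose_two_right,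
    ← Finset.sum_range_id, ← Finset.sum_range_reflect]
  exact Finset.sum_congr rfl fun j _ => Nat.sub_right_comm _ _ _

instance : Subsingleton (F n 0) := ⟨fun x y => by
  obtain ⟨σ, rfl⟩ := gh_quo.surjective x
  obtain ⟨τ, rfl⟩ := gh_quo.surjective y
  exact gh_eq.2 ⟨σ.1⁻¹ * τ.1, par_zero.ge trivial,
    (mul_nonsing_inv_cancel_left _ _ σ.2.isUnit).symm⟩⟩

theorem dg_yS (h : k < n) : θ.Dg 2 (yS θ n k).1 := by
  rw [yS_eq h]
  exact Th.dg_c1 _

section deg

variable (h0 : ∀ m : ℤ, 0 < m → ∀ b : θ.H (F n 0), θ.Dg m b → b = 0)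
include h0

theorem van (hk : k ≤ n) {m : ℤ} (hm : 2 * (dm n k : ℤ) < m) {b : θ.H (F n k)}
    (hb : θ.Dg m b) : b = 0 := by
  induction k generalizing m with
  | zero => exact h0 m (by simpa [dm] using hm) b hb
  | succ k ih =>
    obtain ⟨u, rfl, hu⟩ := lh_dg (lh_pS hk) (dg_yS hk) hb
    rw [show u = 0 from funext fun i => ih (by omega) (by
      have := i.2
      rw [dm_succ] at hm
      omega) (hu i), map_zero]

theorem gam_dg (hk : k ≤ n) {z : θ.H (F n n)} (hz : θ.Dg (2 * (dm n n : ℤ)) z) :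
    θ.Dg (2 * (dm n k : ℤ)) (gam θ n k z) ∧ (gam θ n k z = 0 → z = 0) := by
  induction hk using Nat.decreasingInduction with
  | self => rw [gam_top]; exact ⟨hz, id⟩
  | of_succ k hk ih =>
    obtain ⟨u, e, hu⟩ := lh_dg (lh_pS hk) (dg_yS hk) ih.1
    rw [gam_lt hk, ← e, gS, topL_lhL (lh_pS hk)]
    have h1 := hu (Fin.last _)
    rw [dm_succ, Fin.val_last, show 2 * ((dm n k + (n - k - 1) : ℕ) : ℤ) - ((n - k - 1 : ℕ) : ℤ) * 2 =
      2 * (dm n k : ℤ) by push_cast; ring] at h1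
    refine ⟨h1, fun h2 => ih.2 ?_⟩
    rw [← e, show u = 0 from funext fun i => ?_, map_zero]
    rcases Fin.eq_castSucc_or_eq_last i with ⟨j, rfl⟩ | rfl
    · refine van h0 hk.le ?_ (hu _)
      have := j.2
      rw [dm_succ, Fin.val_castSucc]
      omega
    · exact h2

theorem span_dis (h1 : ∀ b : θ.H (F n 0), θ.Dg 0 b → ∃ r : ℂ, b = r • 1) {Δ : θ.E (F n n)}
    (e : Δ = Th.dis (tow θ n).z 0) (hΔ : θ.Dg (2 * (dm n n : ℤ)) Δ.1) {z : θ.H (F n n)}
    (hz : θ.Dg (2 * (dm n n : ℤ)) z) : ∃ c : ℂ, z = c • Δ.1 := by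
  have h2 : gam θ n 0 Δ.1 = (n.factorial : ℂ) • 1 := by
    have := (tow θ n).full 0 n.zero_le 1
    rw [map_one, one_mul, ← e, ← Nat.cast_smul_eq_nsmul ℂ] at this
    exact this
  obtain ⟨r, hr⟩ := h1 _ (gam_dg h0 n.zero_le hz).1
  refine ⟨r / n.factorial, sub_eq_zero.1 ((gam_dg h0 n.zero_le (hz.sub (hΔ.smul _))).2 ?_)⟩
  rw [map_sub, map_smul, h2, smul_smul, div_mul_cancel₀ _ (Nat.cast_ne_zero.2 n.factorial_ne_zero)]
  exact sub_eq_zero.2 hr

end deg

/-- the inversion -/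
def iv (n : ℕ) : GL (Fin n) ℂ ≃ₜ Iv n where
  toFun g := ⟨(g⁻¹).1, (g⁻¹).det_ne_zero⟩
  invFun σ := ⟨σ.1⁻¹, σ.1, nonsing_inv_mul _ σ.2.isUnit, mul_nonsing_inv _ σ.2.isUnit⟩
  left_inv g := inv_injective (Units.ext rfl)
  right_inv σ := rfl
  continuous_toFun := Units.continuous_coe_inv.subtype_mk _
  continuous_invFun := Units.continuous_iff.2 ⟨continuousOn_univ.1 (ctOn_inv
    continuous_subtype_val.continuousOn fun σ _ => σ.2), continuous_subtype_val⟩

theorem iv_iff {g g' : GL (Fin n) ℂ} {h : Mn n} :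
    (iv n g').1 = (iv n g).1 * h ↔ g.1 = h * g'.1 := by
  change (g'⁻¹).1 = (g⁻¹).1 * h ↔ _
  rw [Units.eq_inv_mul_iff_mul_eq, Units.mul_inv_eq_iff_eq_mul]

theorem ut_iff {h : Mn n} : h ∈ par n n ↔ P275BC.UT h :=
  ⟨fun e a c k => e a c c.2 k, fun e a c _ k => e a c k⟩

/-- the quotient map -/
def πF (g : GL (Fin n) ℂ) : F n n := GH.mk _ (iv n g)

theorem πF_iff {g g' : GL (Fin n) ℂ} : πF g = πF g' ↔ ∃ h : Mn n, P275BC.UT h ∧ g.1 = h * g'.1 :=
  gh_eq.trans (exists_congr fun _ => and_congr ut_iff iv_iff)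

theorem sem (a b : Fin n) (M : Mn n) : Sem (TG a b) {g | dl n (M * (iv n g).1) ≠ 0}
    fun g => fr n (M * (iv n g).1) a a / fr n (M * (iv n g).1) b b := by
  have h1 : ContinuousOn (fun g => fr n (M * (iv n g).1)) {g | dl n (M * (iv n g).1) ≠ 0} :=
    ct_fr ((continuous_const (y := M)).matrix_mul
      (continuous_subtype_val.comp (iv n).continuous)).continuousOn fun _ h => h
  have h2 : ∀ (c : Fin n) g, dl n (M * (iv n g).1) ≠ 0 → fr n (M * (iv n g).1) c c ≠ 0 :=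
    fun c g k => diag_ne (fr_mem k) (fr_det k) c.2
  refine ⟨(op_dl n M).preimage (iv n).continuous, (ctOn_ent h1 a a).div (ctOn_ent h1 b b) (h2 b),
    fun g k => div_ne_zero (h2 a g k) (h2 b g k), ?_⟩
  rintro g g' _ ⟨h, u, e, rfl⟩ k
  have u' := ut_iff.2 u
  have e' := iv_iff.2 e
  rw [mem_setOf_eq, e', ← Matrix.mul_assoc, dl_mul u'] at k
  have k' := left_ne_zero_of_mul k
  refine ⟨k', ?_⟩
  rw [e', ← Matrix.mul_assoc, fr_mul u' (gh_det e'), par_diag a.2 _ (fr_mem k') _ u',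
    par_diag b.2 _ (fr_mem k') _ u', div_mul_div_comm]

theorem locF (a b : Fin n) : Loc πF (TG a b) where
  oq := gh_quo.comp (iv n).isOpenQuotientMap
  fib _ _ e := let ⟨h, u, k⟩ := πF_iff.1 e; ⟨_, h, u, k, rfl⟩
  ex g := let ⟨M, k⟩ := cov_U n (πF g); ⟨_, _, (mem_U le_rfl).1 k, sem a b M⟩

/-- the standard frames -/
def ix (a b : Fin n) (M : Mn n) : (locF a b).lb.ι := ⟨(_, _), sem a b M⟩

theorem c_loc (a b : Fin n) : θ.c (locF a b).lb = θ.c (xb a a.2) - θ.c (xb b b.2) := by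
  rw [eq_sub_iff_add_eq, ← Th.c_mul]
  have h1 : ∀ (M : Mn n) g, πF g ∈ U (par n n) n M → πF g ∈ (locF a b).lb.U (ix a b M) :=
    fun M g k => (locF a b).mem_U.2 ((mem_U le_rfl).1 k)
  refine Th.c_iso (LB.iso_ref _ _ (U _ n) (fun M => (ix a b M, M)) id (op_U le_rfl) (cov_U n)
    (fun M x k => ?_) (fun _ => subset_rfl) fun M M' x k k' => ?_)
  · obtain ⟨g, rfl⟩ := (locF a b).oq.surjective x
    exact ⟨h1 M g k, k⟩
  · obtain ⟨g, rfl⟩ := (locF a b).oq.surjective x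
    change (locF a b).lb.g (ix a b M) (ix a b M') (πF g) * fq n n M M' (πF g) b b =
      fq n n M M' (πF g) a a
    have l := (mem_U le_rfl).1 k
    have l' := (mem_U le_rfl).1 k'
    have h2 := diag_ne (fr_mem l) (fr_det l) b.2
    have h3 := diag_ne (fr_mem l') (fr_det l') a.2
    have h4 := diag_ne (fr_mem l') (fr_det l') b.2
    rw [(locF a b).lb_g (h1 M g k) (h1 M' g k'), πF, fq_mk le_rfl le_rfl,
      diag_div (fr_mem l) (fr_mem l') (fr_det l') a.2, diag_div (fr_mem l) (fr_mem l') (fr_det l') b.2]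
    simp only [ix]
    field_simp

theorem dg_prod {X ι : Type} [TopologicalSpace X] [Nc X] (s : Finset ι) (L : ι → LB X) :
    θ.Dg (2 * (s.card : ℤ)) (∏ p ∈ s, θ.c (L p) : θ.E X).1 := by
  classical
  induction s using Finset.induction_on with
  | empty => exact Th.dg_one
  | insert a s ha ih =>
    rw [Finset.prod_insert ha, Finset.card_insert_of_notMem ha]
    exact (Th.dg_c1 _).mul ih (by push_cast; ring)

/-- **FLAG** -/
theorem flag : FLAG := fun n => by
  obtain ⟨C, h3, h4, h5⟩ := P275HN.coc (bor_le_par (n := n) n)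
  refine ⟨F n n, _, inferInstance, πF, locF, iv n ⁻¹' ((↑) ⁻¹' C), (iv n).isCompact_preimage.2
    ((IsEmbedding.subtypeVal.isCompact_preimage_iff fun σ k => ⟨⟨σ, h4 σ k⟩, rfl⟩).2 h3),
    eq_univ_of_forall fun y => ?_, fun _ _ => πF_iff, fun z hz => ?_⟩
  · obtain ⟨σ, rfl⟩ := gh_quo.surjective y
    obtain ⟨u, a, β, b, e⟩ := h5 σ σ.2
    exact ⟨(iv n).symm ⟨u, h4 u a⟩, a, gh_eq.2 ⟨β, b, e⟩⟩
  · rw [dm_top] at hz
    refine span_dis (θ := th) (fun m hm b hb => P275S.eq_zero_of_vn (((P275S.res_I ℂ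
      (TopCat.of (F n 0))).acy_sub subsingleton_of_subsingleton).2 m hm)
        ((P275S.th_pr_iff _ _ _).1 hb))
      (fun b hb => P275S.Hd_zero_conn (X := TopCat.of (F n 0)) ((P275S.th_pr_iff _ _ _).1 hb)) ?_
      (by rw [← dm_top]; exact dg_prod _ _) ((P275S.th_pr_iff _ _ _).2 hz)
    rw [Th.dis, Finset.filter_true_of_mem fun _ _ => Nat.zero_le _,
      ← Finset.prod_subtype (Finset.univ.filter fun p : Fin n × Fin n => p.1 < p.2) (by simp)
        fun p => th.c (locF p.1 p.2).lb, Finset.prod_filter, Fintype.prod_prod_type]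
    refine Finset.prod_congr rfl fun a _ => ?_
    rw [← Finset.prod_filter, Finset.filter_lt_eq_Ioi]
    exact Finset.prod_congr rfl fun b _ => c_loc a b

end Vale.Agent.P275FG
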